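import Mathlib

/-!
Definitions for P324: unit-time jobs with precedence constraints on `m` identical machines.
-/

namespace Vale.Agent.Lib.P324

variable {V : Type*} [Fintype V]

/-- `τ` is a schedule of length `T` on `m` machines for the precedence arcs `E`:
every job `v` gets a slot `τ v ∈ {1, …, T}`, every slot holds at most `m` jobs,
and `τ u < τ v` for every arc `E u v`. -/
def IsSchedule (E : V → V → Prop) (m T : ℕ) (τ : V → ℕ) : Prop :=
  (∀ v, 1 ≤ τ v ∧ τ v ≤ T) ∧
  (∀ t : ℕ, (Finset.univ.filter (fun v => τ v = t)).card ≤ m) ∧
  ∀ u v, E u v → τ u < τ v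

/-- The optimum makespan: the least `T` for which a schedule of length `T` on `m` machines
exists (by convention `0` if there is no schedule at all). -/
noncomputable def optMakespan (E : V → V → Prop) (m : ℕ) : ℕ :=
  sInf {T : ℕ | ∃ τ : V → ℕ, IsSchedule E m T τ}

/-- The `k`-fold series composition of the precedence graph `E`: the jobs are the pairs
`(v, i)` with `i < k` (copy `i` of job `v`); inside one copy the arcs are those of `E`,
and every job of copy `i` precedes every job of copy `j` whenever `i < j`. -/
def seriesPow (E : V → V → Prop) (k : ℕ) : V × Fin k → V × Fin k → Prop :=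
  fun a b => a.2 < b.2 ∨ (a.2 = b.2 ∧ E a.1 b.1)

end Vale.Agent.Lib.P324
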