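import Vale.Agent.Lib.P324.Defs

/-!
The optimum makespan is additive under series composition.
-/

namespace Vale.Agent.Lib.P324

variable {V : Type*} [Fintype V]

/-- Stacking `k` copies of a schedule. -/
theorem isSchedule_seriesPow (E : V → V → Prop) (m T k : ℕ) (τ : V → ℕ)
    (h : IsSchedule E m T τ) :
    IsSchedule (seriesPow E k) m (k * T) (fun a => a.2.val * T + τ a.1) := by
  classical
  obtain ⟨hr, hc, hp⟩ := h
  refine ⟨?_, ?_, ?_⟩
  · rintro ⟨v, i⟩
    have h1 := hr v
    have hi : i.val + 1 ≤ k := i.isLt
    have h2 : (i.val + 1) * T ≤ k * T := Nat.mul_le_mul_right T hi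
    constructor
    · simp only
      omega
    · simp only
      nlinarith
  · intro t
    by_cases hne : (Finset.univ.filter (fun a : V × Fin k => a.2.val * T + τ a.1 = t)).Nonempty
    · obtain ⟨a0, ha0⟩ := hne
      rw [Finset.mem_filter] at ha0
      have hsub : Finset.univ.filter (fun a : V × Fin k => a.2.val * T + τ a.1 = t) ⊆
          (Finset.univ.filter (fun v => τ v = τ a0.1)).image (fun v => (v, a0.2)) := by
        intro a ha
        rw [Finset.mem_filter] at ha
        have e : a.2.val * T + τ a.1 = a0.2.val * T + τ a0.1 := by rw [ha.2, ha0.2]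
        have h1 := hr a.1
        have h2 := hr a0.1
        have hi : a.2.val = a0.2.val := by
          rcases Nat.lt_trichotomy a.2.val a0.2.val with hlt | heq | hgt
          · exfalso
            have : (a.2.val + 1) * T ≤ a0.2.val * T := Nat.mul_le_mul_right T hlt
            nlinarith
          · exact heq
          · exfalso
            have : (a0.2.val + 1) * T ≤ a.2.val * T := Nat.mul_le_mul_right T hgt
            nlinarith
        have hτ : τ a.1 = τ a0.1 := by
          rw [hi] at e
          omega
        rw [Finset.mem_image]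
        refine ⟨a.1, ?_, ?_⟩
        · rw [Finset.mem_filter]
          exact ⟨Finset.mem_univ _, hτ⟩
        · exact Prod.ext rfl (Fin.ext hi.symm)
      exact (Finset.card_le_card hsub).trans (Finset.card_image_le.trans (hc _))
    · rw [Finset.not_nonempty_iff_eq_empty] at hne
      rw [hne]
      simp
  · rintro ⟨u, i⟩ ⟨v, j⟩ huv
    have h1 := hr u
    have h2 := hr v
    rcases huv with hlt | ⟨heq, he⟩
    · have hlt' : i.val + 1 ≤ j.val := hlt
      have : (i.val + 1) * T ≤ j.val * T := Nat.mul_le_mul_right T hlt'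
      simp only
      nlinarith
    · simp only at heq he ⊢
      have := hp u v he
      rw [heq]
      omega

/-- Restricting a schedule of the series power to one copy and shifting it. -/
theorem isSchedule_restrict (E : V → V → Prop) (m T k : ℕ) (σ : V × Fin k → ℕ)
    (h : IsSchedule (seriesPow E k) m T σ) (i : Fin k) (a b : ℕ)
    (ha : ∀ v, a ≤ σ (v, i)) (hb : ∀ v, σ (v, i) ≤ b) (ha1 : 1 ≤ a) :
    IsSchedule E m (b + 1 - a) (fun v => σ (v, i) + 1 - a) := by
  classical
  obtain ⟨hr, hc, hp⟩ := h
  refine ⟨?_, ?_, ?_⟩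
  · intro v
    have h1 := ha v
    have h2 := hb v
    constructor <;> simp only <;> omega
  · intro t
    have hsub : (Finset.univ.filter (fun v => σ (v, i) + 1 - a = t)).image (fun v => (v, i)) ⊆
        Finset.univ.filter (fun x : V × Fin k => σ x = t + a - 1) := by
      intro x hx
      rw [Finset.mem_image] at hx
      obtain ⟨v, hv, rfl⟩ := hx
      rw [Finset.mem_filter] at hv ⊢
      have h1 := ha v
      refine ⟨Finset.mem_univ _, ?_⟩
      omega
    have hinj : Function.Injective (fun v : V => (v, i)) := by
      intro v w hvw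
      exact (Prod.ext_iff.mp hvw).1
    rw [← Finset.card_image_of_injective _ hinj]
    exact (Finset.card_le_card hsub).trans (hc _)
  · intro u v huv
    have h1 : σ (u, i) < σ (v, i) := hp (u, i) (v, i) (Or.inr ⟨rfl, huv⟩)
    have h2 := ha u
    simp only
    omega

/-- Lower bound: any schedule of the series power has length at least `k * opt`. -/
theorem le_of_isSchedule_seriesPow (E : V → V → Prop) (m T k : ℕ) (σ : V × Fin k → ℕ)
    (h : IsSchedule (seriesPow E k) m T σ) : k * optMakespan E m ≤ T := by
  rcases isEmpty_or_nonempty V with hV | hV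
  · have h0 : optMakespan E m = 0 := by
      apply Nat.eq_zero_of_le_zero
      apply Nat.sInf_le
      refine ⟨fun _ => 0, fun v => isEmptyElim v, fun t => by simp, fun u => isEmptyElim u⟩
    rw [h0]
    simp
  · have hne : (Finset.univ : Finset V).Nonempty := Finset.univ_nonempty
    set a : Fin k → ℕ := fun i => Finset.univ.inf' hne (fun v => σ (v, i)) with ha
    set b : Fin k → ℕ := fun i => Finset.univ.sup' hne (fun v => σ (v, i)) with hb
    have ha_le : ∀ i v, a i ≤ σ (v, i) := fun i v => Finset.inf'_le _ (Finset.mem_univ v)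
    have hb_le : ∀ i v, σ (v, i) ≤ b i := fun i v => Finset.le_sup' (fun v => σ (v, i)) (Finset.mem_univ v)
    have ha1 : ∀ i, 1 ≤ a i := by
      intro i
      obtain ⟨v, -, hv⟩ := Finset.exists_mem_eq_inf' hne (fun v => σ (v, i))
      have : a i = σ (v, i) := hv
      rw [this]
      exact (h.1 (v, i)).1
    have hopt : ∀ i, optMakespan E m ≤ b i + 1 - a i := by
      intro i
      apply Nat.sInf_le
      exact ⟨_, isSchedule_restrict E m T k σ h i (a i) (b i) (ha_le i) (hb_le i) (ha1 i)⟩
    have hab : ∀ i, a i ≤ b i := by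
      intro i
      obtain ⟨v⟩ := hV
      exact (ha_le i v).trans (hb_le i v)
    have hlt : ∀ i j : Fin k, i < j → b i < a j := by
      intro i j hij
      obtain ⟨u, -, hu⟩ := Finset.exists_mem_eq_sup' hne (fun v => σ (v, i))
      obtain ⟨v, -, hv⟩ := Finset.exists_mem_eq_inf' hne (fun v => σ (v, j))
      have e1 : b i = σ (u, i) := hu
      have e2 : a j = σ (v, j) := hv
      rw [e1, e2]
      exact h.2.2 (u, i) (v, j) (Or.inl hij)
    have key : ∀ j : ℕ, ∀ hj : j < k, (j + 1) * optMakespan E m ≤ b ⟨j, hj⟩ := by
      intro j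
      induction j with
      | zero =>
        intro hj
        have h1 := hopt ⟨0, hj⟩
        have h2 := ha1 ⟨0, hj⟩
        have h3 := hab ⟨0, hj⟩
        omega
      | succ j ih =>
        intro hj
        have hj' : j < k := by omega
        have h0 := ih hj'
        have h1 := hopt ⟨j + 1, hj⟩
        have h2 := hlt ⟨j, hj'⟩ ⟨j + 1, hj⟩ (by simp [Fin.lt_def])
        have h3 := hab ⟨j + 1, hj⟩
        have e : (j + 1 + 1) * optMakespan E m = (j + 1) * optMakespan E m + optMakespan E m := by
          ring
        omega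
    rcases Nat.eq_zero_or_pos k with hk | hk
    · rw [hk]
      simp
    · have h1 := key (k - 1) (by omega)
      obtain ⟨v⟩ := hV
      have h2 := hb_le ⟨k - 1, by omega⟩ v
      have h3 : b ⟨k - 1, by omega⟩ ≤ T := by
        obtain ⟨u, -, hu⟩ := Finset.exists_mem_eq_sup' hne (fun v => σ (v, (⟨k - 1, by omega⟩ : Fin k)))
        have e1 : b ⟨k - 1, by omega⟩ = σ (u, ⟨k - 1, by omega⟩) := hu
        rw [e1]
        exact (h.1 _).2
      have e : k - 1 + 1 = k := by omega
      rw [e] at h1
      exact h1.trans h3

/-- The optimum makespan of the `k`-fold series composition is `k` times the optimum. -/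
theorem optMakespan_seriesPow (E : V → V → Prop) (m k : ℕ) :
    optMakespan (seriesPow E k) m = k * optMakespan E m := by
  by_cases hfeas : {T : ℕ | ∃ τ : V → ℕ, IsSchedule E m T τ}.Nonempty
  · obtain ⟨τ, hτ⟩ := Nat.sInf_mem hfeas
    have h1 : optMakespan (seriesPow E k) m ≤ k * optMakespan E m := by
      apply Nat.sInf_le
      exact ⟨_, isSchedule_seriesPow E m _ k τ hτ⟩
    have hfeas' : {T : ℕ | ∃ σ : V × Fin k → ℕ, IsSchedule (seriesPow E k) m T σ}.Nonempty :=
      ⟨_, _, isSchedule_seriesPow E m _ k τ hτ⟩
    obtain ⟨σ, hσ⟩ := Nat.sInf_mem hfeas'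
    have h2 := le_of_isSchedule_seriesPow E m _ k σ hσ
    exact le_antisymm h1 h2
  · have h0 : optMakespan E m = 0 := by
      rw [Set.not_nonempty_iff_eq_empty] at hfeas
      simp [optMakespan, hfeas]
    rw [h0, Nat.mul_zero]
    rcases Nat.eq_zero_or_pos k with hk | hk
    · apply Nat.eq_zero_of_le_zero
      apply Nat.sInf_le
      subst hk
      refine ⟨fun _ => 0, fun a => a.2.elim0, fun t => ?_, fun a => a.2.elim0⟩
      have : IsEmpty (V × Fin 0) := ⟨fun a => a.2.elim0⟩
      simp
    · have hemp : {T : ℕ | ∃ σ : V × Fin k → ℕ, IsSchedule (seriesPow E k) m T σ} = ∅ := by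
        rw [Set.eq_empty_iff_forall_notMem]
        rintro T ⟨σ, hσ⟩
        apply hfeas
        rcases isEmpty_or_nonempty V with hV | hV
        · exact ⟨0, fun _ => 0, fun v => isEmptyElim v, fun t => by simp, fun u => isEmptyElim u⟩
        · have hne : (Finset.univ : Finset V).Nonempty := Finset.univ_nonempty
          let i0 : Fin k := ⟨0, hk⟩
          have hsch := isSchedule_restrict E m T k σ hσ i0 1 T
            (fun v => (hσ.1 (v, i0)).1) (fun v => (hσ.1 (v, i0)).2) le_rfl
          exact ⟨_, _, hsch⟩
      simp [optMakespan, hemp]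

end Vale.Agent.Lib.P324
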